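import Mathlib.Data.List.Infix

namespace Vale.Agent.P329

/-- Every factor of length `m` of the word `w` contains the `N`-th power of a nonempty word of
length at most `P` as a factor. -/
def Slow {α : Type} (P N m : ℕ) (w : List α) : Prop :=
  ∀ u : List α, u <:+: w → u.length = m →
    ∃ z : List α, z ≠ [] ∧ z.length ≤ P ∧ (List.replicate N z).flatten <:+: u

end Vale.Agent.P329
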